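import Mathlib

/-! # P057: integer matrices with polynomially bounded powers have small trace -/

namespace Vale.Agent.P057.R3.H792

open Filter Topology Matrix

/-- the eigenvalues of a complex matrix with polynomially bounded powers have modulus at most
one -/
theorem eig_le {n : ℕ} (B : Matrix (Fin n) (Fin n) ℂ) (C c : ℕ)
    (h : ∀ (k : ℕ) (i j : Fin n), ‖(B ^ k) i j‖ ≤ C * ((k : ℝ) + 1) ^ c) (l : ℂ)
    (hl : B.charpoly.IsRoot l) : ‖l‖ ≤ 1 := by
  have hdet : (Matrix.scalar (Fin n) l - B).det = 0 := by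
    rw [← Matrix.eval_charpoly]; exact hl
  obtain ⟨v, hv0, hv⟩ := Matrix.exists_mulVec_eq_zero_iff.2 hdet
  have hBv : B *ᵥ v = l • v := by
    rw [Matrix.sub_mulVec, sub_eq_zero] at hv
    rw [← hv]
    ext i
    simp [Matrix.scalar_apply, Matrix.mulVec_diagonal]
  have hpow : ∀ k : ℕ, (B ^ k) *ᵥ v = l ^ k • v := by
    intro k
    induction k with
    | zero => simp
    | succ k ih =>
      rw [pow_succ, ← Matrix.mulVec_mulVec, hBv, Matrix.mulVec_smul, ih, smul_smul, pow_succ,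
        mul_comm]
  obtain ⟨i0, hi0⟩ := Function.ne_iff.1 hv0
  obtain ⟨i, hi⟩ : ∃ i, ∀ j, ‖v j‖ ≤ ‖v i‖ := by
    obtain ⟨i, _, hi⟩ := Finset.exists_max_image Finset.univ (fun j => ‖v j‖) ⟨i0, Finset.mem_univ _⟩
    exact ⟨i, fun j => hi j (Finset.mem_univ _)⟩
  have hvi : 0 < ‖v i‖ := lt_of_lt_of_le (norm_pos_iff.2 (by simpa using hi0)) (hi i0)
  have hb : ∀ k : ℕ, ‖l‖ ^ k ≤ n * C * ((k : ℝ) + 1) ^ c := by
    intro k
    have h1 : l ^ k * v i = ∑ j, (B ^ k) i j * v j := by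
      have h2 := congrFun (hpow k) i
      rw [Pi.smul_apply, smul_eq_mul] at h2
      rw [← h2]
      rfl
    have h3 : ‖l‖ ^ k * ‖v i‖ ≤ (n * C * ((k : ℝ) + 1) ^ c) * ‖v i‖ := by
      rw [← norm_pow, ← norm_mul, h1]
      calc ‖∑ j, (B ^ k) i j * v j‖ ≤ ∑ j, ‖(B ^ k) i j * v j‖ := norm_sum_le _ _
        _ ≤ ∑ _j : Fin n, (C * ((k : ℝ) + 1) ^ c) * ‖v i‖ := by
            refine Finset.sum_le_sum fun j _ => ?_
            rw [norm_mul]
            exact mul_le_mul (h k i j) (hi j) (norm_nonneg _) (by positivity)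
        _ = _ := by
            rw [Finset.sum_const, Finset.card_univ, Fintype.card_fin, nsmul_eq_mul]; ring
    exact le_of_mul_le_mul_right h3 hvi
  by_contra hlt
  rw [not_le] at hlt
  have ht := (tendsto_pow_const_div_const_pow_of_one_lt c hlt).comp (tendsto_add_atTop_nat 1)
  have ht2 := ht.const_mul ((n : ℝ) * C)
  rw [mul_zero] at ht2
  have hpos : 0 < ‖l‖⁻¹ := inv_pos.2 (by linarith)
  have hge : ∀ k : ℕ, ‖l‖⁻¹ ≤ (n : ℝ) * C * (((k + 1 : ℕ) : ℝ) ^ c / ‖l‖ ^ (k + 1)) := by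
    intro k
    have h0 : (0 : ℝ) < ‖l‖ := by linarith
    rw [← mul_div_assoc, le_div_iff₀ (pow_pos h0 _), pow_succ]
    have := hb k
    push_cast
    calc ‖l‖⁻¹ * (‖l‖ ^ k * ‖l‖) = ‖l‖ ^ k := by field_simp
      _ ≤ _ := this
  have := le_of_tendsto_of_tendsto' (tendsto_const_nhds (x := ‖l‖⁻¹)) ht2 hge
  linarith

theorem tr_bound {n : ℕ} (A : Matrix (Fin n) (Fin n) ℤ) (C c : ℕ)
    (h : ∀ (k : ℕ) (i j : Fin n), |(A ^ k) i j| ≤ C * ((k : ℤ) + 1) ^ c) : |A.trace| ≤ n := by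
  set B : Matrix (Fin n) (Fin n) ℂ := A.map (Int.castRingHom ℂ) with hB
  have hBk : ∀ k : ℕ, B ^ k = (A ^ k).map (Int.castRingHom ℂ) := by
    intro k
    have := map_pow ((Int.castRingHom ℂ).mapMatrix (m := Fin n)) A k
    simpa [RingHom.mapMatrix_apply, hB] using this.symm
  have hb : ∀ (k : ℕ) (i j : Fin n), ‖(B ^ k) i j‖ ≤ C * ((k : ℝ) + 1) ^ c := by
    intro k i j
    rw [hBk, Matrix.map_apply, eq_intCast, Complex.norm_intCast]
    have := h k i j
    exact_mod_cast this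
  have htr : B.trace = ((A.trace : ℤ) : ℂ) := by
    simp [hB, Matrix.trace]
  have h1 : ‖B.trace‖ ≤ n := by
    rw [Matrix.trace_eq_sum_roots_charpoly]
    calc ‖B.charpoly.roots.sum‖ ≤ (B.charpoly.roots.map fun z => ‖z‖).sum :=
          norm_multiset_sum_le _
      _ ≤ (B.charpoly.roots.map fun _ => (1 : ℝ)).sum := by
          refine Multiset.sum_map_le_sum_map _ _ fun l hl => ?_
          exact eig_le B C c hb l (Polynomial.isRoot_of_mem_roots hl)
      _ = (Multiset.card B.charpoly.roots : ℝ) := by simp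
      _ ≤ n := by
          have h2 := Polynomial.card_roots' B.charpoly
          rw [Matrix.charpoly_natDegree_eq_dim, Fintype.card_fin] at h2
          exact_mod_cast h2
  rw [htr, Complex.norm_intCast] at h1
  exact_mod_cast h1

end Vale.Agent.P057.R3.H792

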